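import Vale.Agent.P092.H99.CL.Key
import Vale.Agent.P092.CL.Quad

/-!
P092, TEAM P, stage 3 (helper99): the four keys of `CL/Quad` from the two polynomial counts.
-/

set_option linter.all false

open scoped InnerProductSpace ENNReal
open Filter Topology ContinuousLinearMap MeasureTheory TopologicalSpace

namespace Vale.Agent.P092.H99.CL

open Vale.Agent.P092.CL
open Vale.Agent.P092.SP (GQ)

variable {S P M V₁ V₂ : Type} [Group S] [MeasurableSpace V₁] [MeasurableSpace V₂]
  [TopologicalSpace S] [MulAction S P] [TopologicalSpace P] [CompactSpace P]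
  [ContinuousConstSMul S P] [MulAction S M] [TopologicalSpace M] [CompactSpace M]
  [ContinuousConstSMul S M] [NormedAddCommGroup V₁] [NormedAddCommGroup V₂]
  [ProperSpace V₁] [BorelSpace V₁] [ProperSpace V₂] [BorelSpace V₂]
  {L : Lt S P M V₁ V₂} [IsFiniteMeasureOnCompacts L.μ₁] [L.μ₁.IsOpenPosMeasure]
  [IsFiniteMeasureOnCompacts L.μ₂] [L.μ₂.IsOpenPosMeasure]

/-- in a generalised quadrangle every point has a projection to every line -/
theorem proj_of (hQ : GQ L.In) (c : P) (l : M) (h : ¬ L.In c l) :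
    ∃ b ν, L.In b l ∧ L.In b ν ∧ L.In c ν := by
  obtain ⟨y, m, h1, h2, h3⟩ := hQ.foot c l h
  exact ⟨y, m, h3, h2, h1⟩

theorem key1Stmt (hG : Geo L) (hQ : GQ L.In) (hc : Count1Stmt L) : Key1Stmt L := by
  intro E Γ K _ _ _ _ _ _ 𝒰 ι π lam W Ω m q Ec F h c l hcl u g f ho
  exact key1_straight hG hc (proj_of hQ) h hcl u g f ho

theorem key1Stmt' (hG : Geo L) (hQ : GQ L.In) (hc : Count2Stmt L) : Key1Stmt' L := by
  intro E Γ K _ _ _ _ _ _ 𝒰 ι π lam W Ω m q Ec F h c l hcl u g f ho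
  exact key1_flipped hG hc (proj_of hQ) h hcl u g f ho

theorem key2Stmt (hG : Geo L) (hQ : GQ L.In) (hc : Count2Stmt L) : Key2Stmt L := by
  intro E Γ K _ _ _ _ _ _ 𝒰 ι π lam W Ω m q Ec F h c l hcl u g f ho
  exact key2_straight hG hc (proj_of hQ) h hcl u g f ho

theorem key2Stmt' (hG : Geo L) (hQ : GQ L.In) (hc : Count1Stmt L) : Key2Stmt' L := by
  intro E Γ K _ _ _ _ _ _ 𝒰 ι π lam W Ω m q Ec F h c l hcl u g f ho
  exact key2_flipped hG hc (proj_of hQ) h hcl u g f ho

/-- **Witt index 2, ultrametric, from purity, the two counts and the flip.** -/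
theorem one_of_counts [T2Space P] [T2Space M] [TotallyDisconnectedSpace P]
    [TotallyDisconnectedSpace M] (hG : Geo L) (hQ : GQ L.In) (hP : PurStmt L)
    (h1 : Count1Stmt L) (h2 : Count2Stmt L) (hF : FlipStmt L) : OneStmt L :=
  one_td hQ hG.in_cl hP (key1Stmt hG hQ h1) (key1Stmt' hG hQ h2) (key2Stmt hG hQ h2)
    (key2Stmt' hG hQ h1) hF

end Vale.Agent.P092.H99.CL
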