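import Vale.Agent.P092.CL.Defs
import Vale.Agent.P092.H124.KL4

/-!
P092, TEAM P, stages 2 and 3 (helper99): from polynomial counts to vanishing products and to the
keys, in the letters of `CL/Defs`.

* `cnt_zero` : `F * B = 0` if `F` is dominated by cut-offs along a wall and `B` commutes with the
  wall element and its root group and has a polynomial count; `cnt_zero_U`, `cnt_zero_H`.
* `key_of_cnt` : `U u * V f * U h = 0` for opposite `u`, `h`.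
* `key1_straight`, `key2_straight`, `key1_flipped`, `key2_flipped` for quadrangles.
-/

set_option linter.all false

open scoped InnerProductSpace ENNReal
open Filter Topology ContinuousLinearMap MeasureTheory TopologicalSpace

namespace Vale.Agent.P092.H99.CL

open Vale.Agent.P092.CL
open Vale.Agent.P092.SD (Ms UC)
open Vale.Agent.P092.RC (Cm TRN Moore)
open Vale.Agent.P092.H790.CT (PicL)
open Vale.Agent.P092.H790.CTA (ORBG SIZEG cnt_size of_poly csm conj_pow')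
open Vale.Agent.P092.H124.KL (norm_adj')

section count

variable {E Γ K V : Type} [Group E] [Group Γ] [NormedAddCommGroup K] [InnerProductSpace ℂ K]
  [CompleteSpace K] {π : E →* (K →L[ℂ] K)} {lam : Γ →* (K →L[ℂ] K)} {W : Set (K →L[ℂ] K)} {Ω : K}
  {m : Set Γ → (K →L[ℂ] K)}
  [TopologicalSpace E] [IsTopologicalGroup E] [NormedAddCommGroup V] [ProperSpace V]
  [MeasurableSpace V] [BorelSpace V] {μ : Measure V} [IsFiniteMeasureOnCompacts μ]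
  [μ.IsOpenPosMeasure] {b : E} {n : V → E} {ρ : ℝ} {sz : Γ → ℝ}

omit [IsTopologicalGroup E] in
/-- the part of a picture used for counts -/
theorem picL_of_X (h : RC.PicX π lam W Ω) : PicL π lam W Ω :=
  ⟨h.adjP, h.adjL, h.comm, h.Wadj, h.WP, h.WL, h.tr_adj⟩

/-- the counting principle for an operator dominated by cut-offs along an ultrafilter -/
theorem zero_of_count' (𝒰 : Filter ℕ) [NeBot 𝒰] (h𝒰 : 𝒰 ≤ atTop)
    (hP : PicL π lam W Ω) (hM : Ms lam W Ω m) (hUC : UC π W Ω m)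
    (hρ : 0 < ρ) (hρ1 : ρ < 1) (hnc : Tendsto n (𝓝 0) (𝓝 1)) (hORB : ORBG μ b n ρ π lam W Ω)
    (hsz : ∀ γ, ∃ d : ℝ, 1 ≤ d ∧ ∀ y, sz (γ * y) ≤ d * sz y) (hsz0 : ∀ γ, 0 < sz γ)
    (hS : SIZEG b π Ω m sz) {g : E} {B P : K →L[ℂ] K} (hB : Cm W B)
    (hb : Commute B (π (g * b * g⁻¹))) (hn : ∀ s, Commute B (π (g * n s * g⁻¹)))
    {c : ℝ} {NA : ℝ → ℝ → Set Γ}
    (dom : ∀ ζ : K, ∀ ε > 0, ∃ R : ℝ, ∀ T > 0, ∀ᶠ N : ℕ in 𝒰,
      ‖P ζ‖ ≤ c * ‖m (NA R T) (π (g * b ^ N * g⁻¹)⁻¹ ζ)‖ + ε)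
    (cnt : ∀ R : ℝ, ∃ T > 0, ∃ (C : ℝ) (d : ℕ), ∀ J : ℝ, 0 ≤ J → ∀ S : Finset Γ,
      (∀ γ ∈ S, γ ∈ NA R T ∧ Real.log (sz γ) ≤ J) →
        ∑ γ ∈ S, ‖adjoint B (lam γ Ω)‖ ^ 2 ≤ C * (1 + J) ^ d) : P * B = 0 := by
  refine ContinuousLinearMap.ext fun ζ => ?_
  change P (B ζ) = 0
  rw [← norm_eq_zero]
  refine le_antisymm (le_of_forall_pos_le_add fun ε hε => ?_) (norm_nonneg _)
  rw [zero_add]
  obtain ⟨R, hR⟩ := dom (B ζ) ε hε
  obtain ⟨T, hT, C, d, h⟩ := cnt R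
  obtain ⟨η, hη, hp⟩ := of_poly (lam := lam) (Ω := Ω) (sz := sz) hρ hρ1 hsz0 d
  have h1 := cnt_size (μ := μ) hP hM hUC hρ.le hnc hORB hsz hS hB hb hn hη
    (hp B (NA R T) C h) ζ
  have h4 : Tendsto (fun N : ℕ => c * ‖m (NA R T) (B (π (g * b ^ N * g⁻¹)⁻¹ ζ))‖ + ε) 𝒰
      (𝓝 ε) := by
    have h5 := ((h1.norm.const_mul c).add_const ε).mono_left h𝒰
    rwa [norm_zero, MulZeroClass.mul_zero, zero_add] at h5
  refine ge_of_tendsto h4 ((hR T hT).mono fun N hN => ?_)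
  have e1 : π (g * b ^ N * g⁻¹)⁻¹ (B ζ) = B (π (g * b ^ N * g⁻¹)⁻¹ ζ) := by
    have h6 : Commute B (π (g * b ^ N * g⁻¹)⁻¹) := by
      rw [conj_pow']
      exact H790.CTA.comm_inv (H790.CTA.comm_pow hb N)
    exact (congrArg (fun A : K →L[ℂ] K => A ζ) h6.eq).symm
  rw [← e1]
  exact hN

end count

section geo

variable {S P M V₁ V₂ : Type} [Group S] [MeasurableSpace V₁] [MeasurableSpace V₂]
  [TopologicalSpace S] [MulAction S P] [TopologicalSpace P] [CompactSpace P]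
  [ContinuousConstSMul S P] [MulAction S M] [TopologicalSpace M] [CompactSpace M]
  [ContinuousConstSMul S M] [NormedAddCommGroup V₁] [NormedAddCommGroup V₂]
  {L : Lt S P M V₁ V₂}

/-- left translations change the size by a bounded factor -/
theorem size_trans (hG : Geo L) {Γ : Type} [Group Γ] {q : Γ → S} (hq : L.PH q) (γ : Γ) :
    ∃ d : ℝ, 1 ≤ d ∧ ∀ y, L.nm (q (γ * y)) ≤ d * L.nm (q y) := by
  obtain ⟨C, hC, h⟩ := hG.nm_mul
  refine ⟨max 1 (C * L.nm (q γ)), le_max_left _ _, fun y => ?_⟩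
  obtain ⟨z, hz, e⟩ := hq γ y
  rw [e, hG.z_nm z hz]
  refine (h _ _).trans ?_
  rw [← mul_assoc]
  exact mul_le_mul_of_nonneg_right (le_max_right _ _) (hG.nm_pos _).le

end geo

section mz

variable {S P M V₁ V₂ : Type} [Group S] [MeasurableSpace V₁] [MeasurableSpace V₂]
  [TopologicalSpace S] [MulAction S P] [TopologicalSpace P] [CompactSpace P]
  [ContinuousConstSMul S P] [MulAction S M] [TopologicalSpace M] [CompactSpace M]
  [ContinuousConstSMul S M] [NormedAddCommGroup V₁] [NormedAddCommGroup V₂]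
  {L : Lt S P M V₁ V₂}
  {E Γ K : Type} [Group E] [TopologicalSpace E] [Group Γ] [NormedAddCommGroup K]
  [InnerProductSpace ℂ K] [CompleteSpace K] {𝒰 : Ultrafilter ℕ} {ι : S →* E}
  {π : E →* (K →L[ℂ] K)} {lam : Γ →* (K →L[ℂ] K)}
  {W : Set (K →L[ℂ] K)} {Ω : K} {m : Set Γ → (K →L[ℂ] K)} {q : Γ → S}
  {V : Type} [NormedAddCommGroup V] [ProperSpace V] [MeasurableSpace V] [BorelSpace V]
  {μ : Measure V} [IsFiniteMeasureOnCompacts μ] [μ.IsOpenPosMeasure]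

/-- **From a polynomial count to a vanishing product**, any wall, any operator `F` dominated by
the cut-offs. -/
theorem cnt_zero (hG : Geo L) (hPB : PB L 𝒰 ι π lam W Ω m q) {b : S} {n : V → S}
    (hn0 : n 0 = 1) (hnc : Continuous n) (horb : ORB μ ι π lam W Ω b n)
    (hsz : SIZEG (ι b) π Ω m fun γ => L.nm (q γ)) (g : S) {F B : K →L[ℂ] K} (hB : Cm W B)
    (hb : Commute B (π (ι (g * b * g⁻¹)))) (hn : ∀ s, Commute B (π (ι (g * n s * g⁻¹))))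
    {c : ℝ} {NA : ℝ → ℝ → Set Γ}
    (dom : ∀ ζ : K, ∀ ε > 0, ∃ R : ℝ, ∀ T > 0, ∀ᶠ t : ℕ in (𝒰 : Filter ℕ),
      ‖F ζ‖ ≤ c * ‖m (NA R T) (π (ι (g * b ^ t * g⁻¹))⁻¹ ζ)‖ + ε)
    (cnt : ∀ R : ℝ, ∃ T > 0, ∃ (C : ℝ) (d : ℕ), ∀ J : ℝ, 0 ≤ J → ∀ T' : Finset Γ,
      (∀ γ ∈ T', γ ∈ NA R T ∧ Real.log (L.nm (q γ)) ≤ J) →
        ∑ γ ∈ T', ‖adjoint B (lam γ Ω)‖ ^ 2 ≤ C * (1 + J) ^ d) : F * B = 0 := by
  haveI : IsTopologicalGroup E := hPB.adm.tg
  obtain ⟨ρ, hρ, hρ1, horb⟩ := horb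
  have hconj : ∀ β : S, ι g * ι β * (ι g)⁻¹ = ι (g * β * g⁻¹) := by
    intro β
    rw [map_mul, map_mul, map_inv]
  refine zero_of_count' (μ := μ) (𝒰 : Filter ℕ) hPB.h𝒰 (b := ι b) (n := fun s : V => ι (n s))
    (ρ := ρ) (sz := fun γ => L.nm (q γ)) (g := ι g) (c := c) (NA := NA) (picL_of_X hPB.pic)
    hPB.ms hPB.uc hρ hρ1 ?_ horb (size_trans hG hPB.ph) (fun γ => hG.nm_pos _) hsz hB ?_ ?_ ?_ cnt
  · have h1 : Continuous fun s : V => ι (n s) := hPB.adm.cι.comp hnc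
    have h2 := h1.tendsto 0
    rw [hn0, map_one] at h2
    exact h2
  · rw [hconj]; exact hb
  · intro s
    rw [hconj]; exact hn s
  · intro ζ ε hε
    obtain ⟨R, hR⟩ := dom ζ ε hε
    refine ⟨R, fun T hT => (hR T hT).mono fun t ht => ?_⟩
    have e1 : ι (g * b ^ t * g⁻¹) = ι g * ι b ^ t * (ι g)⁻¹ := by
      rw [map_mul, map_mul, map_pow, map_inv]
    rw [e1] at ht
    exact ht

variable {Y X : Type} [TopologicalSpace Y] [CompactSpace Y] [MulAction S Y]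
  [ContinuousConstSMul S Y] [MulAction S X]

/-- `cnt_zero` for the unital completely positive limits -/
theorem cnt_zero_U (hG : Geo L) (hPB : PB L 𝒰 ι π lam W Ω m q) {b : S} {n : V → S}
    (hn0 : n 0 = 1) (hnc : Continuous n) (horb : ORB μ ι π lam W Ω b n)
    (hsz : SIZEG (ι b) π Ω m fun γ => L.nm (q γ)) {v0 : X} {NA : ℝ → ℝ → Set Y → Set Γ}
    {U : X → (C(Y, ℂ) →ₗ[ℂ] (K →L[ℂ] K))} {p : ℝ} (hU : UFam 𝒰 b v0 ι π lam W m q NA U p)
    (g : S) {B : K →L[ℂ] K} (hB : Cm W B)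
    (hb : Commute B (π (ι (g * b * g⁻¹)))) (hn : ∀ s, Commute B (π (ι (g * n s * g⁻¹))))
    {u : C(Y, ℂ)} {A : Set Y} (hA : IsOpen A) (huA : tsupport u ⊆ A)
    (cnt : ∀ R : ℝ, ∃ T > 0, ∃ (C : ℝ) (d : ℕ), ∀ J : ℝ, 0 ≤ J → ∀ T' : Finset Γ,
      (∀ γ ∈ T', γ ∈ NA R T A ∧ Real.log (L.nm (q γ)) ≤ J) →
        ∑ γ ∈ T', ‖adjoint B (lam γ Ω)‖ ^ 2 ≤ C * (1 + J) ^ d) : U (g • v0) u * B = 0 :=
  cnt_zero (μ := μ) hG hPB hn0 hnc horb hsz g hB hb hn (NA := fun R T => NA R T A)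
    (hU.dom g u A hA huA) cnt

/-- `cnt_zero` for the calculi -/
theorem cnt_zero_H (hG : Geo L) (hPB : PB L 𝒰 ι π lam W Ω m q) {b : S} {n : V → S}
    (hn0 : n 0 = 1) (hnc : Continuous n) (horb : ORB μ ι π lam W Ω b n)
    (hsz : SIZEG (ι b) π Ω m fun γ => L.nm (q γ)) {v0 : X} {NA : ℝ → ℝ → Set Y → Set Γ}
    {U : X → (C(Y, ℂ) →⋆ₐ[ℂ] (K →L[ℂ] K))} (hU : HFam 𝒰 b v0 ι π lam W m q NA U)
    (g : S) {B : K →L[ℂ] K} (hB : Cm W B)
    (hb : Commute B (π (ι (g * b * g⁻¹)))) (hn : ∀ s, Commute B (π (ι (g * n s * g⁻¹))))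
    {u : C(Y, ℂ)} {A : Set Y} (hA : IsOpen A) (huA : tsupport u ⊆ A)
    (cnt : ∀ R : ℝ, ∃ T > 0, ∃ (C : ℝ) (d : ℕ), ∀ J : ℝ, 0 ≤ J → ∀ T' : Finset Γ,
      (∀ γ ∈ T', γ ∈ NA R T A ∧ Real.log (L.nm (q γ)) ≤ J) →
        ∑ γ ∈ T', ‖adjoint B (lam γ Ω)‖ ^ 2 ≤ C * (1 + J) ^ d) : U (g • v0) u * B = 0 :=
  cnt_zero (μ := μ) hG hPB hn0 hnc horb hsz g hB hb hn (NA := fun R T => NA R T A)
    (hU.dom g u A hA huA) cnt

end mz

section room

variable {Y Y' : Type} [TopologicalSpace Y] [CompactSpace Y] [TopologicalSpace Y']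
  [CompactSpace Y']

/-- room around the support of `u` -/
theorem exists_room [T2Space Y] [T2Space Y'] {In : Y → Y' → Prop}
    (hIn : IsClosed {p : Y × Y' | In p.1 p.2}) {u h : C(Y, ℂ)} (ho : H796.Opp In u h) :
    ∃ A : Set Y, IsOpen A ∧ tsupport u ⊆ A ∧
      ∀ X ∈ closure A, ∀ X' ∈ tsupport h, ∀ z, In X z → ¬ In X' z := by
  have hcol := H796.isClosed_col hIn
  have hcl : IsClosed {X : Y | ∃ X' ∈ tsupport h, ∃ z, In X z ∧ In X' z} := by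
    have h1 : {X : Y | ∃ X' ∈ tsupport h, ∃ z, In X z ∧ In X' z} =
        Prod.fst '' ({q : Y × Y | ∃ z, In q.1 z ∧ In q.2 z} ∩ (Set.univ ×ˢ tsupport h)) := by
      ext X
      constructor
      · rintro ⟨X', hX', z, h1, h2⟩
        exact ⟨(X, X'), ⟨⟨z, h1, h2⟩, trivial, hX'⟩, rfl⟩
      · rintro ⟨⟨X, X'⟩, ⟨⟨z, h1, h2⟩, -, hX'⟩, rfl⟩
        exact ⟨X', hX', z, h1, h2⟩
    rw [h1]
    have h2 := hcol.inter (isClosed_univ.prod (isClosed_tsupport h))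
    exact (h2.isCompact.image continuous_fst).isClosed
  obtain ⟨A, hA, huA, hAc⟩ := normal_exists_closure_subset (isClosed_tsupport u)
    hcl.isOpen_compl (by
      rintro X hX ⟨X', hX', z, h1, h2⟩
      exact ho X hX X' hX' z h1 h2)
  exact ⟨A, hA, huA, fun X hX X' hX' z h1 h2 => hAc hX ⟨X', hX', z, h1, h2⟩⟩

variable {Y' : Type} [TopologicalSpace Y'] [CompactSpace Y']

/-- the conjugates of a set with dense span have dense span -/
theorem dense_star {D : Set C(Y', ℂ)}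
    (hD : closure (Submodule.span ℂ D : Set C(Y', ℂ)) = Set.univ) :
    Dense (Submodule.span ℂ ((fun g => star g) '' D) : Set C(Y', ℂ)) := by
  have hsp : (Submodule.span ℂ ((fun g => star g) '' D) : Set C(Y', ℂ)) =
      (fun g => star g) '' (Submodule.span ℂ D : Set C(Y', ℂ)) := by
    apply Set.Subset.antisymm
    · intro x hx
      refine Submodule.span_induction (p := fun x _ => x ∈ (fun g => star g) ''
        (Submodule.span ℂ D : Set C(Y', ℂ))) ?_ ?_ ?_ ?_ hx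
      · rintro _ ⟨y, hy, rfl⟩
        exact ⟨y, Submodule.subset_span hy, rfl⟩
      · exact ⟨0, Submodule.zero_mem _, star_zero _⟩
      · rintro _ _ _ _ ⟨y, hy, rfl⟩ ⟨y', hy', rfl⟩
        exact ⟨y + y', Submodule.add_mem _ hy hy', star_add _ _⟩
      · rintro c _ _ ⟨y, hy, rfl⟩
        refine ⟨star c • y, Submodule.smul_mem _ _ hy, ?_⟩
        change star (star c • y) = c • star y
        rw [star_smul, star_star]
    · rintro _ ⟨y, hy, rfl⟩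
      refine Submodule.span_induction (p := fun y _ => star y ∈
        (Submodule.span ℂ ((fun g => star g) '' D) : Set C(Y', ℂ))) ?_ ?_ ?_ ?_ hy
      · intro y hy
        exact Submodule.subset_span ⟨y, hy, rfl⟩
      · rw [star_zero]; exact Submodule.zero_mem _
      · intro y y' _ _ h1 h2
        rw [star_add]; exact Submodule.add_mem _ h1 h2
      · intro c y _ h1
        rw [star_smul]; exact Submodule.smul_mem _ _ h1
  rw [hsp]
  have hsurj : Function.Surjective fun g : C(Y', ℂ) => star g := fun g => ⟨star g, star_star g⟩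
  exact hsurj.denseRange.dense_image continuous_star (dense_iff_closure_eq.2 hD)

end room

section defs

variable {S P M V₁ V₂ : Type} [Group S] [MeasurableSpace V₁] [MeasurableSpace V₂]
  {Γ K : Type} [NormedAddCommGroup K]
  [InnerProductSpace ℂ K] [CompleteSpace K] {Y Y' : Type} [TopologicalSpace Y] [CompactSpace Y]
  [MulAction S Y] [ContinuousConstSMul S Y] [TopologicalSpace Y'] [CompactSpace Y']
  [MulAction S Y'] [ContinuousConstSMul S Y'] [TopologicalSpace S]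

/-- The polynomial count: `U` is the calculus near the wall, `V` the other one. -/
def Cnt (L : Lt S P M V₁ V₂) (q : Γ → S) (NA : ℝ → ℝ → Set Y → Set Γ) (In : Y → Y' → Prop)
    (D : Set C(Y', ℂ)) (U : C(Y, ℂ) →⋆ₐ[ℂ] (K →L[ℂ] K)) (V : C(Y', ℂ) →⋆ₐ[ℂ] (K →L[ℂ] K)) :
    Prop :=
  ∀ (R : ℝ) (A : Set Y) (h : C(Y, ℂ)) (f : C(Y', ℂ)), f ∈ D →
    (∀ X ∈ closure A, ∀ X' ∈ tsupport h, ∀ z, In X z → ¬ In X' z) →
    ∃ T > 0, ∃ (C : ℝ) (d : ℕ), ∀ J : ℝ, 0 ≤ J → ∀ S' : Finset Γ,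
      (∀ γ ∈ S', γ ∈ NA R T A ∧ Real.log (L.nm (q γ)) ≤ J) → ∀ ξ : K,
      ∑ γ ∈ S', ‖U (act (q γ)⁻¹ h) (V (act (q γ)⁻¹ f) ξ)‖ ^ 2 ≤ C * (1 + J) ^ d * ‖ξ‖ ^ 2

end defs

section key

variable {S P M V₁ V₂ : Type} [Group S] [MeasurableSpace V₁] [MeasurableSpace V₂]
  [TopologicalSpace S] [MulAction S P] [TopologicalSpace P] [CompactSpace P]
  [ContinuousConstSMul S P] [MulAction S M] [TopologicalSpace M] [CompactSpace M]
  [ContinuousConstSMul S M] [NormedAddCommGroup V₁] [NormedAddCommGroup V₂]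
  {L : Lt S P M V₁ V₂}
  {E Γ K : Type} [Group E] [TopologicalSpace E] [Group Γ] [NormedAddCommGroup K]
  [InnerProductSpace ℂ K] [CompleteSpace K] {𝒰 : Ultrafilter ℕ} {ι : S →* E}
  {π : E →* (K →L[ℂ] K)} {lam : Γ →* (K →L[ℂ] K)}
  {W : Set (K →L[ℂ] K)} {Ω : K} {m : Set Γ → (K →L[ℂ] K)} {q : Γ → S}
  {V : Type} [NormedAddCommGroup V] [ProperSpace V] [MeasurableSpace V] [BorelSpace V]
  {μ : Measure V} [IsFiniteMeasureOnCompacts μ] [μ.IsOpenPosMeasure]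
  {Y Y' X X' : Type} [TopologicalSpace Y] [CompactSpace Y]
  [MulAction S Y] [ContinuousConstSMul S Y] [TopologicalSpace Y'] [CompactSpace Y']
  [MulAction S Y'] [ContinuousConstSMul S Y'] [MulAction S X] [MulAction S X']

/-- covariance, inverse form -/
theorem cov_inv' {U : C(Y, ℂ) →⋆ₐ[ℂ] (K →L[ℂ] K)}
    (cov : ∀ γ f, lam γ * U f * lam γ⁻¹ = U (act (q γ) f)) (γ : Γ) (f : C(Y, ℂ)) :
    lam γ * U (act (q γ)⁻¹ f) * lam γ⁻¹ = U f := by
  rw [cov]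
  congr 1
  ext x
  change f (((q γ)⁻¹)⁻¹ • ((q γ)⁻¹ • x)) = f x
  rw [inv_inv, smul_inv_smul]

theorem commute_fix' {Z : Type} [MulAction S Z]
    {U : Z → (C(Y, ℂ) →⋆ₐ[ℂ] (K →L[ℂ] K))}
    (pcov : ∀ g v f, π (ι g) * U v f * π (ι g)⁻¹ = U (g • v) f) {g : S} {v : Z} (hg : g • v = v)
    (f : C(Y, ℂ)) : Commute (U v f) (π (ι g)) := by
  have h := pcov g v f
  rw [hg] at h
  have h3 : π (ι g)⁻¹ * π (ι g) = 1 := by rw [← map_mul, inv_mul_cancel, map_one]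
  change U v f * π (ι g) = π (ι g) * U v f
  calc U v f * π (ι g) = (π (ι g) * U v f * π (ι g)⁻¹) * π (ι g) := by rw [h]
    _ = π (ι g) * U v f * (π (ι g)⁻¹ * π (ι g)) := by simp only [mul_assoc]
    _ = π (ι g) * U v f := by rw [h3, mul_one]

/-- **From the count to the key**, any wall; `v` is the place near the wall (moved from `v0` by
`g`), `v'` the other place: it is fixed by the wall element and the root group at `v`. -/
theorem key_of_cnt [T2Space Y] [T2Space Y'] (hG : Geo L)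
    (hPB : PB L 𝒰 ι π lam W Ω m q) {b : S} {n : V → S} (hn0 : n 0 = 1)
    (hnc : Continuous n) (horb : ORB μ ι π lam W Ω b n)
    (hsz : SIZEG (ι b) π Ω m fun γ => L.nm (q γ)) {v0 : X}
    {NA : ℝ → ℝ → Set Y → Set Γ} {U : X → (C(Y, ℂ) →⋆ₐ[ℂ] (K →L[ℂ] K))}
    (hU : HFam 𝒰 b v0 ι π lam W m q NA U)
    {Q : X' → (C(Y', ℂ) →⋆ₐ[ℂ] (K →L[ℂ] K))} (cmV : ∀ v f, Cm W (Q v f))
    (covV : ∀ γ v f, lam γ * Q v f * lam γ⁻¹ = Q v (act (q γ) f))
    (pcovV : ∀ g v f, π (ι g) * Q v f * π (ι g)⁻¹ = Q (g • v) f)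
    (hb : b • v0 = v0) (hn : ∀ s, n s • v0 = v0) {g : S} {v : X} {v' : X'} (hg : g • v0 = v)
    (hb' : (g * b * g⁻¹) • v' = v') (hn' : ∀ s, (g * n s * g⁻¹) • v' = v')
    {In : Y → Y' → Prop} (hIn : IsClosed {p : Y × Y' | In p.1 p.2})
    {D : Set C(Y', ℂ)} (hD : closure (Submodule.span ℂ D : Set C(Y', ℂ)) = Set.univ)
    (hc : Cnt L q NA In D (U v) (Q v')) {u h : C(Y, ℂ)} (ho : H796.Opp In u h)
    (f : C(Y', ℂ)) : U v u * Q v' f * U v h = 0 := by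
  subst hg
  have hP := picL_of_X hPB.pic
  have hts : ∀ v : C(Y, ℂ), tsupport ⇑(star v) = tsupport ⇑v := fun v =>
    H124.KL.tsupport_star v
  -- one function of `star D`
  have main : ∀ f ∈ D, U (g • v0) u * Q v' (star f) * U (g • v0) h = 0 := by
    intro f hf
    have ho' : H796.Opp In u (star h) := by
      intro x hx x' hx'
      rw [hts] at hx'
      exact ho x hx x' hx'
    obtain ⟨A, hA, huA, hAf⟩ := exists_room hIn ho'
    have hfix : ∀ {β : S}, β • v0 = v0 → (g * β * g⁻¹) • (g • v0) = g • v0 := by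
      intro β hz
      rw [mul_smul, mul_smul, inv_smul_smul, hz]
    have hcomm : ∀ β : S, β • v0 = v0 → (g * β * g⁻¹) • v' = v' →
        Commute (Q v' (star f) * U (g • v0) h) (π (ι (g * β * g⁻¹))) := by
      intro β h1 h2
      exact Commute.mul_left (commute_fix' pcovV h2 _) (commute_fix' hU.pcov (hfix h1) _)
    have hCm : Cm W (Q v' (star f) * U (g • v0) h) := fun w' hw' => by
      rw [mul_assoc, hU.cm (g • v0) h w' hw', ← mul_assoc, cmV v' (star f) w' hw',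
        mul_assoc]
    rw [mul_assoc]
    refine cnt_zero_H (μ := μ) hG hPB hn0 hnc horb hsz hU g hCm (hcomm _ hb hb')
      (fun s => hcomm _ (hn s) (hn' s)) hA huA ?_
    intro R
    obtain ⟨T, hT, c, d, hc'⟩ := hc R A (star h) f hf hAf
    refine ⟨T, hT, c, d, fun J hJ S hS => ?_⟩
    have h2 := hc' J hJ S hS Ω
    rw [hPB.pic.nΩ, one_pow, mul_one] at h2
    refine le_trans (le_of_eq ?_) h2
    refine Finset.sum_congr rfl fun γ _ => ?_
    congr 1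
    have e := norm_adj' (Ω := Ω) (H790.CT.lam_norm hP)
      (fun γ f => cov_inv' (q := q) (fun γ f => hU.cov γ (g • v0) f) γ f)
      (fun γ f => cov_inv' (q := q) (fun γ f => covV γ v' f) γ f) (star h) f γ
    rw [star_star] at e
    exact e
  refine H218.NC.mid_dense (Q v') (U (g • v0) u) (U (g • v0) h) (dense_star hD) ?_ f
  rintro _ ⟨g', hg', rfl⟩
  exact main g' hg'

end key

section stmts

variable {S P M V₁ V₂ : Type} [Group S] [MeasurableSpace V₁] [MeasurableSpace V₂]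
  [TopologicalSpace S] [MulAction S P] [TopologicalSpace P] [CompactSpace P]
  [ContinuousConstSMul S P] [MulAction S M] [TopologicalSpace M] [CompactSpace M]
  [ContinuousConstSMul S M]

/-- COUNT_1 (quadrangles): near the wall of points. `E`, `B` calculi of points, `G`, `G'` calculi
of lines, incidences `E G`, `B G`, `B G'`. -/
def Count1Stmt (L : Lt S P M V₁ V₂) : Prop :=
  ∃ D : Set C(M, ℂ), closure (Submodule.span ℂ D : Set C(M, ℂ)) = Set.univ ∧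
    ∀ {Γ K : Type} [NormedAddCommGroup K] [InnerProductSpace ℂ K] [CompleteSpace K]
      (q : Γ → S), L.UD q → ∀ (E B : C(P, ℂ) →⋆ₐ[ℂ] (K →L[ℂ] K))
      (G G' : C(M, ℂ) →⋆ₐ[ℂ] (K →L[ℂ] K)), H796.PL L.In E G → H796.PL L.In B G →
      H796.PL L.In B G' → Cnt L q (L.na1 q) L.In D E G'

/-- COUNT_2 (quadrangles): near the wall of lines. `E`, `B` calculi of points, `G`, `G'` calculi
of lines, incidences `E G`, `E G'`, `B G'`. -/
def Count2Stmt (L : Lt S P M V₁ V₂) : Prop :=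
  ∃ D : Set C(P, ℂ), closure (Submodule.span ℂ D : Set C(P, ℂ)) = Set.univ ∧
    ∀ {Γ K : Type} [NormedAddCommGroup K] [InnerProductSpace ℂ K] [CompleteSpace K]
      (q : Γ → S), L.UD q → ∀ (E B : C(P, ℂ) →⋆ₐ[ℂ] (K →L[ℂ] K))
      (G G' : C(M, ℂ) →⋆ₐ[ℂ] (K →L[ℂ] K)), H796.PL L.In E G → H796.PL L.In E G' →
      H796.PL L.In B G' → Cnt L q (L.na2 q) (flip L.In) D G B

end stmts

section legs

variable {S P M V₁ V₂ : Type} [Group S] [MeasurableSpace V₁] [MeasurableSpace V₂]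
  [TopologicalSpace S] [MulAction S P] [TopologicalSpace P] [CompactSpace P]
  [ContinuousConstSMul S P] [MulAction S M] [TopologicalSpace M] [CompactSpace M]
  [ContinuousConstSMul S M] [NormedAddCommGroup V₁] [NormedAddCommGroup V₂]
  [ProperSpace V₁] [BorelSpace V₁] [ProperSpace V₂] [BorelSpace V₂]
  {L : Lt S P M V₁ V₂} [IsFiniteMeasureOnCompacts L.μ₁] [L.μ₁.IsOpenPosMeasure]
  [IsFiniteMeasureOnCompacts L.μ₂] [L.μ₂.IsOpenPosMeasure]
  {E Γ K : Type} [Group E] [TopologicalSpace E] [Group Γ] [NormedAddCommGroup K]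
  [InnerProductSpace ℂ K] [CompleteSpace K] {𝒰 : Ultrafilter ℕ} {ι : S →* E}
  {π : E →* (K →L[ℂ] K)} {lam : Γ →* (K →L[ℂ] K)}
  {W : Set (K →L[ℂ] K)} {Ω : K} {m : Set Γ → (K →L[ℂ] K)} {q : Γ → S}

theorem PL.swap {X Z : Type} [TopologicalSpace X] [CompactSpace X] [TopologicalSpace Z]
    [CompactSpace Z] {In : X → Z → Prop} {b : C(X, ℂ) →⋆ₐ[ℂ] (K →L[ℂ] K)}
    {l : C(Z, ℂ) →⋆ₐ[ℂ] (K →L[ℂ] K)} (h : H796.PL (flip In) l b) : H796.PL In b l where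
  com f g := (h.com g f).symm
  inc f g hfg := by
    have h1 := h.com g f
    change b f * l g = 0
    rw [← h1.eq]
    exact h.inc g f fun z hz x hx hxz => hfg x hx z hz hxz

/-- straight leg, first key -/
theorem key1_straight (hG : Geo L) (hc : Count1Stmt L)
    (proj : ∀ c l, ¬ L.In c l → ∃ b ν, L.In b l ∧ L.In b ν ∧ L.In c ν)
    {Ec : P → (C(P, ℂ) →⋆ₐ[ℂ] (K →L[ℂ] K))} {F : M → (C(M, ℂ) →⋆ₐ[ℂ] (K →L[ℂ] K))}
    (h : LegS L 𝒰 ι π lam W Ω m q Ec F) {c : P} {l : M} (hcl : ¬ L.In c l) (u : C(P, ℂ))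
    (g : C(M, ℂ)) (f : C(P, ℂ)) (ho : H796.Opp L.In u f) : Ec c u * F l g * Ec c f = 0 := by
  haveI := hG.t2P
  haveI := hG.t2M
  obtain ⟨D, hD, hc⟩ := hc
  obtain ⟨b, ν, h1, h2, h3⟩ := proj c l hcl
  obtain ⟨γ, hγ, e1, e2⟩ := hG.fix1 c l
  exact key_of_cnt (μ := L.μ₁) hG h.base (n := L.u1) hG.u10 hG.u1c h.base.orb1 h.base.size1
    h.e h.f.cm h.f.cov h.f.pcov hG.b1p hG.u1p hγ e1 e2 hG.in_cl hD
    (hc q h.base.ud (Ec c) (Ec b) (F ν) (F l) (h.pl _ _ h3) (h.pl _ _ h2) (h.pl _ _ h1)) ho g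

/-- straight leg, second key -/
theorem key2_straight (hG : Geo L) (hc : Count2Stmt L)
    (proj : ∀ c l, ¬ L.In c l → ∃ b ν, L.In b l ∧ L.In b ν ∧ L.In c ν)
    {Ec : P → (C(P, ℂ) →⋆ₐ[ℂ] (K →L[ℂ] K))} {F : M → (C(M, ℂ) →⋆ₐ[ℂ] (K →L[ℂ] K))}
    (h : LegS L 𝒰 ι π lam W Ω m q Ec F) {c : P} {l : M} (hcl : ¬ L.In c l) (u : C(M, ℂ))
    (g : C(P, ℂ)) (f : C(M, ℂ)) (ho : H796.Opp (flip L.In) u f) :
    F l u * Ec c g * F l f = 0 := by
  haveI := hG.t2P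
  haveI := hG.t2M
  obtain ⟨D, hD, hc⟩ := hc
  obtain ⟨b, ν, h1, h2, h3⟩ := proj c l hcl
  obtain ⟨γ, hγ, e1, e2⟩ := hG.fix2 c l
  exact key_of_cnt (μ := L.μ₂) hG h.base (n := L.u2) hG.u20 hG.u2c h.base.orb2 h.base.size2
    h.f h.e.cm h.e.cov h.e.pcov hG.b2m hG.u2m hγ e1 e2 (In := flip L.In)
    (hG.in_cl.preimage continuous_swap) hD
    (hc q h.base.ud (Ec b) (Ec c) (F l) (F ν) (h.pl _ _ h1) (h.pl _ _ h2) (h.pl _ _ h3)) ho g

/-- flipped leg, first key -/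
theorem key1_flipped (hG : Geo L) (hc : Count2Stmt L)
    (proj : ∀ c l, ¬ L.In c l → ∃ b ν, L.In b l ∧ L.In b ν ∧ L.In c ν)
    {Ec : P → (C(M, ℂ) →⋆ₐ[ℂ] (K →L[ℂ] K))} {F : M → (C(P, ℂ) →⋆ₐ[ℂ] (K →L[ℂ] K))}
    (h : LegF L 𝒰 ι π lam W Ω m q Ec F) {c : P} {l : M} (hcl : ¬ L.In c l) (u : C(M, ℂ))
    (g : C(P, ℂ)) (f : C(M, ℂ)) (ho : H796.Opp (flip L.In) u f) :
    Ec c u * F l g * Ec c f = 0 := by
  haveI := hG.t2P
  haveI := hG.t2M
  obtain ⟨D, hD, hc⟩ := hc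
  obtain ⟨b, ν, h1, h2, h3⟩ := proj c l hcl
  obtain ⟨γ, hγ, e1, e2⟩ := hG.fix1 c l
  exact key_of_cnt (μ := L.μ₁) hG h.base (n := L.u1) hG.u10 hG.u1c h.base.orb1 h.base.size1
    h.e h.f.cm h.f.cov h.f.pcov hG.b1p hG.u1p hγ e1 e2 (In := flip L.In)
    (hG.in_cl.preimage continuous_swap) hD
    (hc q h.base.ud (F ν) (F l) (Ec c) (Ec b) (PL.swap (h.pl _ _ h3)) (PL.swap (h.pl _ _ h2))
      (PL.swap (h.pl _ _ h1))) ho g

/-- flipped leg, second key -/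
theorem key2_flipped (hG : Geo L) (hc : Count1Stmt L)
    (proj : ∀ c l, ¬ L.In c l → ∃ b ν, L.In b l ∧ L.In b ν ∧ L.In c ν)
    {Ec : P → (C(M, ℂ) →⋆ₐ[ℂ] (K →L[ℂ] K))} {F : M → (C(P, ℂ) →⋆ₐ[ℂ] (K →L[ℂ] K))}
    (h : LegF L 𝒰 ι π lam W Ω m q Ec F) {c : P} {l : M} (hcl : ¬ L.In c l) (u : C(P, ℂ))
    (g : C(M, ℂ)) (f : C(P, ℂ)) (ho : H796.Opp L.In u f) : F l u * Ec c g * F l f = 0 := by
  haveI := hG.t2P
  haveI := hG.t2M
  obtain ⟨D, hD, hc⟩ := hc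
  obtain ⟨b, ν, h1, h2, h3⟩ := proj c l hcl
  obtain ⟨γ, hγ, e1, e2⟩ := hG.fix2 c l
  exact key_of_cnt (μ := L.μ₂) hG h.base (n := L.u2) hG.u20 hG.u2c h.base.orb2 h.base.size2
    h.f h.e.cm h.e.cov h.e.pcov hG.b2m hG.u2m hγ e1 e2 (In := L.In) hG.in_cl hD
    (hc q h.base.ud (F l) (F ν) (Ec b) (Ec c) (PL.swap (h.pl _ _ h1)) (PL.swap (h.pl _ _ h2))
      (PL.swap (h.pl _ _ h3))) ho g

end legs

end Vale.Agent.P092.H99.CL
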