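import Vale.Agent.P092.H99.CL.KeyQ

/-!
P092, TEAM P, stage 3 (helper99): Witt index `2`, any local field (real polar spaces too):
`one_of` : a leg is straight and all its calculi commute, from purity, [0], the keys, SYN and
the flip; `one_counts` : the same with the keys replaced by the two counts.
-/

set_option linter.all false

open scoped InnerProductSpace ENNReal
open Filter Topology ContinuousLinearMap MeasureTheory TopologicalSpace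

namespace Vale.Agent.P092.H99.CL

open Vale.Agent.P092.CL
open Vale.Agent.P092.SP (GQ gq_com pl_flip)

variable {S P M V₁ V₂ : Type} [Group S] [MeasurableSpace V₁] [MeasurableSpace V₂]
  [TopologicalSpace S] [MulAction S P] [TopologicalSpace P] [CompactSpace P]
  [ContinuousConstSMul S P] [MulAction S M] [TopologicalSpace M] [CompactSpace M]
  [ContinuousConstSMul S M] [NormedAddCommGroup V₁] [NormedAddCommGroup V₂]

section stmts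

variable (L : Lt S P M V₁ V₂)

/-- **[CL-0]** the limits are *-homomorphisms, straight types -/
def ZeroStmt : Prop :=
  ∀ {E Γ K : Type} [Group E] [TopologicalSpace E] [Group Γ] [NormedAddCommGroup K]
    [InnerProductSpace ℂ K] [CompleteSpace K] (𝒰 : Ultrafilter ℕ) (ι : S →* E)
    (π : E →* (K →L[ℂ] K)) (lam : Γ →* (K →L[ℂ] K)) (W : Set (K →L[ℂ] K)) (Ω : K)
    (m : Set Γ → (K →L[ℂ] K)) (q : Γ → S)
    (U11 : P → (C(P, ℂ) →ₗ[ℂ] (K →L[ℂ] K))) (p11 : ℝ)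
    (U12 : P → (C(M, ℂ) →ₗ[ℂ] (K →L[ℂ] K))) (p12 : ℝ)
    (U21 : M → (C(P, ℂ) →ₗ[ℂ] (K →L[ℂ] K))) (p21 : ℝ)
    (U22 : M → (C(M, ℂ) →ₗ[ℂ] (K →L[ℂ] K))) (p22 : ℝ),
    LegP L 𝒰 ι π lam W Ω m q U11 p11 U12 p12 U21 p21 U22 p22 → p11 = 1 → p22 = 1 →
    ∃ (Ec : P → (C(P, ℂ) →⋆ₐ[ℂ] (K →L[ℂ] K))) (F : M → (C(M, ℂ) →⋆ₐ[ℂ] (K →L[ℂ] K))),
      (∀ c f, Ec c f = U11 c f) ∧ (∀ l f, F l f = U22 l f) ∧ LegS L 𝒰 ι π lam W Ω m q Ec F

/-- **[CL-0]**, flipped types -/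
def ZeroStmt' : Prop :=
  ∀ {E Γ K : Type} [Group E] [TopologicalSpace E] [Group Γ] [NormedAddCommGroup K]
    [InnerProductSpace ℂ K] [CompleteSpace K] (𝒰 : Ultrafilter ℕ) (ι : S →* E)
    (π : E →* (K →L[ℂ] K)) (lam : Γ →* (K →L[ℂ] K)) (W : Set (K →L[ℂ] K)) (Ω : K)
    (m : Set Γ → (K →L[ℂ] K)) (q : Γ → S)
    (U11 : P → (C(P, ℂ) →ₗ[ℂ] (K →L[ℂ] K))) (p11 : ℝ)
    (U12 : P → (C(M, ℂ) →ₗ[ℂ] (K →L[ℂ] K))) (p12 : ℝ)
    (U21 : M → (C(P, ℂ) →ₗ[ℂ] (K →L[ℂ] K))) (p21 : ℝ)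
    (U22 : M → (C(M, ℂ) →ₗ[ℂ] (K →L[ℂ] K))) (p22 : ℝ),
    LegP L 𝒰 ι π lam W Ω m q U11 p11 U12 p12 U21 p21 U22 p22 → p12 = 1 → p21 = 1 →
    ∃ (Ec : P → (C(M, ℂ) →⋆ₐ[ℂ] (K →L[ℂ] K))) (F : M → (C(P, ℂ) →⋆ₐ[ℂ] (K →L[ℂ] K))),
      (∀ c f, Ec c f = U12 c f) ∧ (∀ l f, F l f = U21 l f) ∧ LegF L 𝒰 ι π lam W Ω m q Ec F

/-- **[CL-SYN]** the middle letter is free -/
def SynStmt : Prop :=
  ∀ {K : Type} [NormedAddCommGroup K] [InnerProductSpace ℂ K] [CompleteSpace K]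
    (b : C(P, ℂ) →⋆ₐ[ℂ] (K →L[ℂ] K)) (l : C(M, ℂ) →⋆ₐ[ℂ] (K →L[ℂ] K)),
    H796.PL L.In b l → H677.Syn b l ∧ H677.Syn l b

end stmts

section td

variable {L : Lt S P M V₁ V₂} [T2Space P] [T2Space M] [TotallyDisconnectedSpace P]
  [TotallyDisconnectedSpace M]

theorem zeroStmt_td (hQ : GQ L.In) (hI : IsClosed {p : P × M | L.In p.1 p.2}) : ZeroStmt L := by
  intro E Γ K _ _ _ _ _ _ 𝒰 ι π lam W Ω m q U11 p11 U12 p12 U21 p21 U22 p22 h h1 h2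
  exact zero_td hQ hI h h1 h2

theorem zeroStmt_td' (hQ : GQ L.In) (hI : IsClosed {p : P × M | L.In p.1 p.2}) :
    ZeroStmt' L := by
  intro E Γ K _ _ _ _ _ _ 𝒰 ι π lam W Ω m q U11 p11 U12 p12 U21 p21 U22 p22 h h1 h2
  exact zero_td' hQ hI h h1 h2

theorem synStmt_td (hQ : GQ L.In) (hI : IsClosed {p : P × M | L.In p.1 p.2}) : SynStmt L :=
  fun b l h => syn_gq hQ hI h

end td

section main

variable {L : Lt S P M V₁ V₂}

/-- **One leg, Witt index 2, any local field.** -/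
theorem one_of (hQ : GQ L.In) (hI : IsClosed {p : P × M | L.In p.1 p.2}) [T2Space P] [T2Space M]
    (hP : PurStmt L) (h0 : ZeroStmt L) (h0' : ZeroStmt' L) (h1 : Key1Stmt L)
    (h1' : Key1Stmt' L) (h2 : Key2Stmt L) (h2' : Key2Stmt' L) (syn : SynStmt L)
    (hF : FlipStmt L) : OneStmt L := by
  intro E Γ K _ _ _ _ _ _ 𝒰 ι π lam W Ω m q h
  obtain ⟨U11, p11, U12, p12, U21, p21, U22, p22, h⟩ := h
  have hI' : IsClosed {p : M × P | flip L.In p.1 p.2} :=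
    hI.preimage (f := fun q : M × P => (q.2, q.1)) (by fun_prop)
  rcases hP 𝒰 ι π lam W Ω m q U11 p11 U12 p12 U21 p21 U22 p22 h with ⟨e1, e2⟩ | ⟨e1, e2⟩
  · obtain ⟨Ec, F, -, -, hl⟩ := h0 𝒰 ι π lam W Ω m q U11 p11 U12 p12 U21 p21 U22 p22 h e1 e2
    obtain ⟨a1, a2, a3⟩ := gq_com hQ hQ hI hl.pl hl.e.agr hl.f.agr
      (fun c l hc => (syn _ _ (hl.pl c l hc)).1) (fun c l hc => (syn _ _ (hl.pl c l hc)).2)
      (h1 𝒰 ι π lam W Ω m q Ec F hl) (h2 𝒰 ι π lam W Ω m q Ec F hl)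
    exact ⟨Ec, F, hl, a1, a2, a3⟩
  · obtain ⟨Ec, F, -, -, hl⟩ := h0' 𝒰 ι π lam W Ω m q U11 p11 U12 p12 U21 p21 U22 p22 h e1 e2
    have hn : Nontrivial K := ⟨Ω, 0, fun h0 => by
      have := h.base.pic.nΩ
      rw [h0, norm_zero] at this
      exact zero_ne_one this⟩
    obtain ⟨a1, a2, a3⟩ := gq_com hQ hQ.dual hI' hl.pl hl.e.agr hl.f.agr
      (fun c l hc => (syn _ _ (pl_flip (hl.pl c l hc))).2)
      (fun c l hc => (syn _ _ (pl_flip (hl.pl c l hc))).1)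
      (h1' 𝒰 ι π lam W Ω m q Ec F hl) (h2' 𝒰 ι π lam W Ω m q Ec F hl)
    exact (hF Ec F hl.pl hl.e.agr hl.f.agr ⟨a1, a2, a3⟩).elim

variable [ProperSpace V₁] [BorelSpace V₁] [ProperSpace V₂] [BorelSpace V₂]
  [IsFiniteMeasureOnCompacts L.μ₁] [L.μ₁.IsOpenPosMeasure]
  [IsFiniteMeasureOnCompacts L.μ₂] [L.μ₂.IsOpenPosMeasure]

/-- The same with the keys replaced by the two polynomial counts. -/
theorem one_counts (hG : Geo L) (hQ : GQ L.In) (hP : PurStmt L) (h0 : ZeroStmt L)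
    (h0' : ZeroStmt' L) (h1 : Count1Stmt L) (h2 : Count2Stmt L) (syn : SynStmt L)
    (hF : FlipStmt L) : OneStmt L :=
  haveI := hG.t2P
  haveI := hG.t2M
  one_of hQ hG.in_cl hP h0 h0' (key1Stmt hG hQ h1) (key1Stmt' hG hQ h2) (key2Stmt hG hQ h2)
    (key2Stmt' hG hQ h1) syn hF

end main

end Vale.Agent.P092.H99.CL
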